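import Vale.Agent.P052.Main

namespace Vale.Agent.P052

open Finset Module

/-- Among any six of the 321 vertices there are two far ones. -/
theorem exists_far {F : Finset (Fin 321)} (hF : 5 < F.card) :
    ∃ v ∈ F, ∃ w ∈ F, w < v ∧ D (95 + v) (95 + w) = 2 := by
  by_contra hcon
  push Not at hcon
  set G : Finset ℕ := F.image (fun x : Fin 321 => (x : ℕ)) with hG
  have hcard : 5 < G.card := by
    rw [hG, Finset.card_image_of_injective _ Fin.val_injective]
    exact hF
  set l : List ℕ := (G.sort (· ≥ ·)).take 6 with hl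
  have hlen : l.length = 6 := by
    rw [hl, List.length_take, Finset.length_sort]
    omega
  have hmem : ∀ v ∈ l, ∃ x : Fin 321, (x : ℕ) = v ∧ x ∈ F := by
    intro v hv
    have h1 : v ∈ G.sort (· ≥ ·) := List.mem_of_mem_take hv
    rw [Finset.mem_sort, hG, Finset.mem_image] at h1
    obtain ⟨x, hx, hxv⟩ := h1
    exact ⟨x, hxv, hx⟩
  have hs : l.Pairwise (· > ·) := by
    have h1 : (G.sort (· ≥ ·)).Pairwise (· > ·) := by
      have h2 := Finset.pairwise_sort G (· ≥ ·)
      have h3 : (G.sort (· ≥ ·)).Pairwise (· ≠ ·) := Finset.sort_nodup G (· ≥ ·)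
      exact (h2.and h3).imp fun h => lt_of_le_of_ne h.1 h.2.symm
    exact h1.sublist (List.take_sublist _ _)
  have hp : l.Pairwise Adj := by
    refine hs.imp_of_mem fun {a b} ha hb hab => ?_
    obtain ⟨x, rfl, hx⟩ := hmem a ha
    obtain ⟨z, rfl, hz⟩ := hmem b hb
    rcases link x.2 hab with h2 | h6
    · exact absurd h2 (hcon x hx z hz hab)
    · exact h6.2
  match l, hlen, hs, hp, hmem with
  | a :: l', hlen, hs, hp, hmem =>
    obtain ⟨x, rfl, -⟩ := hmem a (by simp)
    exact no_clique _ x.2 l' (by simpa using hlen) hs hp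

/-- The ambient space of dimension `63 + j`. -/
abbrev Amb (j : ℕ) : Type := WithLp 2 (U × EuclideanSpace ℝ (Fin j))

theorem finrank_Amb (j : ℕ) : finrank ℝ (Amb j) = 63 + j := by
  rw [LinearEquiv.finrank_eq (WithLp.linearEquiv 2 ℝ (U × EuclideanSpace ℝ (Fin j))),
    Module.finrank_prod, finrank_U]
  simp

/-- The constant vector. -/
noncomputable def one (j : ℕ) : EuclideanSpace ℝ (Fin j) := WithLp.toLp 2 fun _ => 1

theorem inner_one (j : ℕ) : inner ℝ (one j) (one j) = (j : ℝ) := by
  rw [PiLp.inner_apply]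
  simp [one]

theorem inner_one_single (j : ℕ) (i : Fin j) :
    inner ℝ (one j) (EuclideanSpace.single i (1 : ℝ)) = 1 := by
  rw [EuclideanSpace.inner_single_right]
  simp [one]

theorem inner_single_single' (j : ℕ) (i k : Fin j) :
    inner ℝ (EuclideanSpace.single i (1 : ℝ)) (EuclideanSpace.single k (1 : ℝ)) =
      if i = k then 1 else 0 := by
  rw [EuclideanSpace.inner_single_right]
  by_cases h : i = k
  · subst h; simp
  · simp [h, Ne.symm h]

/-- The root of the quadratic equation. -/
theorem exists_root (j : ℕ) : ∃ t : ℝ, 0 < t ∧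
    (104 + 7 * (j : ℝ)) * t ^ 2 + 16 * t - (136 + 8 * (j : ℝ)) = 0 := by
  have hj : (0 : ℝ) ≤ j := Nat.cast_nonneg j
  set A : ℝ := 104 + 7 * (j : ℝ) with hA
  set C : ℝ := 136 + 8 * (j : ℝ) with hC
  have hA0 : 0 < A := by positivity
  have hC0 : 0 < C := by positivity
  set s : ℝ := Real.sqrt (64 + A * C) with hs
  have hs2 : s ^ 2 = 64 + A * C := Real.sq_sqrt (by positivity)
  have hs8 : 8 < s := by
    rw [show (8 : ℝ) = Real.sqrt (8 ^ 2) by rw [Real.sqrt_sq (by norm_num)]]
    apply Real.sqrt_lt_sqrt (by norm_num)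
    nlinarith [mul_pos hA0 hC0]
  refine ⟨(s - 8) / A, by apply div_pos <;> linarith, ?_⟩
  field_simp
  nlinarith

section points

variable (j : ℕ) (t : ℝ)

/-- The factor in the first component. -/
noncomputable def fc (v : Fin 321) : ℝ := if v = 0 then t else 1

/-- The length `r`. -/
noncomputable def rr : ℝ := Real.sqrt (96 * (16 + (j : ℝ)))

/-- The length `α`. -/
noncomputable def aa : ℝ := Real.sqrt 1536

/-- The length `β`. -/
noncomputable def bb : ℝ := 96 / (aa + rr j)

/-- The factor in the second component. -/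
noncomputable def sc (v : Fin 321) : ℝ := if v = 0 then 96 * (1 - t) / rr j else 0

/-- The points belonging to the vertices. -/
noncomputable def pv (v : Fin 321) : Amb j :=
  WithLp.toLp 2 (fc t v • (⟨col (num v), col_mem _⟩ : U), sc j t v • one j)

/-- The further points. -/
noncomputable def ap (i : Fin j) : Amb j :=
  WithLp.toLp 2 ((0 : U), aa • EuclideanSpace.single i (1 : ℝ) + bb j • one j)

theorem rr_pos : 0 < rr j := Real.sqrt_pos.mpr (by positivity)

theorem rr_sq : rr j ^ 2 = 96 * (16 + (j : ℝ)) := Real.sq_sqrt (by positivity)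

theorem aa_pos : 0 < aa := Real.sqrt_pos.mpr (by norm_num)

theorem aa_sq : aa ^ 2 = 1536 := Real.sq_sqrt (by norm_num)

theorem bb_eq : (j : ℝ) * bb j = rr j - aa := by
  have h1 := rr_pos j
  have h2 := aa_pos
  have h3 := rr_sq j
  have h4 := aa_sq
  unfold bb
  rw [mul_div_assoc', div_eq_iff (by positivity)]
  nlinarith

theorem bb_eq2 : (j : ℝ) * bb j ^ 2 + 2 * aa * bb j = 96 := by
  have h1 := rr_pos j
  have h2 := aa_pos
  have h5 := bb_eq j
  have h6 : bb j * (aa + rr j) = 96 := by
    unfold bb
    exact div_mul_cancel₀ _ (by positivity)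
  calc (j : ℝ) * bb j ^ 2 + 2 * aa * bb j = bb j * ((j : ℝ) * bb j) + 2 * aa * bb j := by ring
    _ = bb j * (rr j - aa) + 2 * aa * bb j := by rw [h5]
    _ = bb j * (aa + rr j) := by ring
    _ = 96 := h6

theorem inner_pv_pv (v w : Fin 321) : inner ℝ (pv j t v) (pv j t w) =
    fc t v * fc t w * (96 * Nm (num v) (num w)) + sc j t v * sc j t w * j := by
  have h : inner ℝ (pv j t v) (pv j t w) =
      inner ℝ (fc t v • col (num v)) (fc t w • col (num w)) +
        inner ℝ (sc j t v • one j) (sc j t w • one j) := rfl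
  rw [h, real_inner_smul_left, real_inner_smul_right, inner_col, real_inner_smul_left,
    real_inner_smul_right, inner_one]
  ring

theorem inner_pv_ap (v : Fin 321) (i : Fin j) : inner ℝ (pv j t v) (ap j i) =
    sc j t v * rr j := by
  have h : inner ℝ (pv j t v) (ap j i) =
      inner ℝ (fc t v • col (num v)) (0 : EuclideanSpace ℝ (Fin 416)) +
        inner ℝ (sc j t v • one j) (aa • EuclideanSpace.single i (1 : ℝ) + bb j • one j) := rfl
  rw [h, inner_zero_right, real_inner_smul_left, inner_add_right, real_inner_smul_right,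
    real_inner_smul_right, inner_one, inner_one_single]
  have := bb_eq j
  have e : aa * 1 + bb j * (j : ℝ) = rr j := by linarith
  rw [e]
  ring

theorem inner_ap_ap (i k : Fin j) : inner ℝ (ap j i) (ap j k) =
    (if i = k then 1536 else 0) + 96 := by
  have h : inner ℝ (ap j i) (ap j k) =
      inner ℝ (0 : EuclideanSpace ℝ (Fin 416)) (0 : EuclideanSpace ℝ (Fin 416)) +
        inner ℝ (aa • EuclideanSpace.single i (1 : ℝ) + bb j • one j)
          (aa • EuclideanSpace.single k (1 : ℝ) + bb j • one j) := rfl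
  rw [h, inner_zero_right, inner_add_left, inner_add_right, inner_add_right]
  simp only [real_inner_smul_left, real_inner_smul_right, inner_one, inner_single_single']
  rw [inner_one_single, real_inner_comm (one j) (EuclideanSpace.single i (1 : ℝ)),
    inner_one_single]
  have h1 := bb_eq2 j
  have h2 := aa_sq
  by_cases hik : i = k
  · simp only [hik, if_true]
    linarith
  · simp only [hik, if_false]
    linarith

theorem sq_dist_pv_pv (v w : Fin 321) : dist (pv j t v) (pv j t w) ^ 2 =
    inner ℝ (pv j t v) (pv j t v) - 2 * inner ℝ (pv j t v) (pv j t w) +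
      inner ℝ (pv j t w) (pv j t w) := by
  rw [dist_eq_norm, norm_sub_sq_real, ← real_inner_self_eq_norm_sq, ← real_inner_self_eq_norm_sq]

end points

end Vale.Agent.P052
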