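import Vale.Agent.P052.All

namespace Vale.Agent.P052

open Finset Module

section

variable (j : ℕ) (t : ℝ)

theorem sq_dist {E : Type*} [NormedAddCommGroup E] [InnerProductSpace ℝ E] (x y : E) :
    dist x y ^ 2 = inner ℝ x x - 2 * inner ℝ x y + inner ℝ y y := by
  rw [dist_eq_norm, norm_sub_sq_real, ← real_inner_self_eq_norm_sq, ← real_inner_self_eq_norm_sq]

theorem inner_zero_vertex
    (ht : (104 + 7 * (j : ℝ)) * t ^ 2 + 16 * t - (136 + 8 * (j : ℝ)) = 0) :
    inner ℝ (pv j t 0) (pv j t 0) = 1632 - 192 * t := by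
  rw [inner_pv_pv]
  have h1 : Nm (num 0) (num 0) = 13 := by
    rw [Nm_num]
    have : D (95 + ((0 : Fin 321) : ℕ)) (95 + ((0 : Fin 321) : ℕ)) = 16 := chkCorner
    rw [this]
    norm_num
  have h2 : fc t 0 = t := by simp [fc]
  have h3 : sc j t 0 = 96 * (1 - t) / rr j := by simp [sc]
  rw [h1, h2, h3]
  have hr := rr_pos j
  have hr2 := rr_sq j
  have hj : (0 : ℝ) ≤ j := Nat.cast_nonneg j
  have h4 : 96 * (1 - t) / rr j * (96 * (1 - t) / rr j) * j =
      (96 * (1 - t)) ^ 2 * j / (96 * (16 + (j : ℝ))) := by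
    rw [← hr2]
    field_simp
  rw [h4]
  have h5 : (16 + (j : ℝ)) ≠ 0 := by positivity
  field_simp
  nlinarith

theorem inner_vertex {v : Fin 321} (hv : v ≠ 0) : inner ℝ (pv j t v) (pv j t v) = 1440 := by
  rw [inner_pv_pv]
  have hv' : (v : ℕ) ≠ 0 := fun h => hv (Fin.ext h)
  have h1 : Nm (num v) (num v) = 15 := by
    rw [Nm_num, diag v.2 hv']
    norm_num
  have h2 : fc t v = 1 := by simp [fc, hv]
  have h3 : sc j t v = 0 := by simp [sc, hv]
  rw [h1, h2, h3]
  norm_num

theorem dist_pv_pv (h0 : 0 < t)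
    (ht : (104 + 7 * (j : ℝ)) * t ^ 2 + 16 * t - (136 + 8 * (j : ℝ)) = 0) {v w : Fin 321}
    (h : w < v) :
    (D (95 + v) (95 + w) = 2 → dist (pv j t v) (pv j t w) ^ 2 = 3072) ∧
      (D (95 + v) (95 + w) = 6 → dist (pv j t v) (pv j t w) ^ 2 ≤ 3072) := by
  have hv : v ≠ 0 := by
    rintro rfl
    exact absurd h (by simp)
  have h2 : fc t v = 1 := by simp [fc, hv]
  have h3 : sc j t v = 0 := by simp [sc, hv]
  rw [sq_dist, inner_vertex j t hv]
  by_cases hw : w = 0
  · subst hw
    have h4 : fc t 0 = t := by simp [fc]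
    rw [inner_zero_vertex j t ht, inner_pv_pv, h2, h3, h4, Nm_num]
    constructor
    · intro e
      rw [e]
      push_cast
      ring
    · intro e
      rw [e]
      push_cast
      nlinarith
  · have h4 : fc t w = 1 := by simp [fc, hw]
    rw [inner_vertex j t hw, inner_pv_pv, h2, h3, h4, Nm_num]
    constructor
    · intro e
      rw [e]
      push_cast
      ring
    · intro e
      rw [e]
      push_cast
      norm_num

theorem dist_pv_ap
    (ht : (104 + 7 * (j : ℝ)) * t ^ 2 + 16 * t - (136 + 8 * (j : ℝ)) = 0) (v : Fin 321)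
    (i : Fin j) : dist (pv j t v) (ap j i) ^ 2 = 3072 := by
  rw [sq_dist, inner_pv_ap, inner_ap_ap]
  by_cases hv : v = 0
  · subst hv
    have h3 : sc j t 0 = 96 * (1 - t) / rr j := by simp [sc]
    rw [inner_zero_vertex j t ht, h3, div_mul_cancel₀ _ (rr_pos j).ne']
    simp only [if_true]
    ring
  · have h3 : sc j t v = 0 := by simp [sc, hv]
    rw [inner_vertex j t hv, h3]
    simp only [if_true]
    ring

theorem dist_ap_ap {i k : Fin j} (h : i ≠ k) : dist (ap j i) (ap j k) ^ 2 = 3072 := by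
  rw [sq_dist, inner_ap_ap, inner_ap_ap, inner_ap_ap]
  simp only [h, if_false, if_true]
  norm_num

theorem dist_eq_of_sq {x : ℝ} (hx : 0 ≤ x) (h : x ^ 2 = 3072) : x = Real.sqrt 3072 := by
  rw [← h, Real.sqrt_sq hx]

theorem dist_le_of_sq {x : ℝ} (hx : 0 ≤ x) (h : x ^ 2 ≤ 3072) : x ≤ Real.sqrt 3072 := by
  rw [← Real.sqrt_sq hx]
  exact Real.sqrt_le_sqrt h

end

theorem not_borsuk (j : ℕ) : ¬ BorsukConjecture (63 + j) := by
  obtain ⟨t, h0, ht⟩ := exists_root j
  refine not_borsuk_of_points (finrank_Amb j) (Sum.elim (pv j t) (ap j)) (Real.sqrt 3072)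
    (Real.sqrt_pos.mpr (by norm_num)) ?_ (fun c => ?_)
  · have hvv : ∀ v w : Fin 321, dist (pv j t v) (pv j t w) ≤ Real.sqrt 3072 := by
      have key : ∀ v w : Fin 321, w < v → dist (pv j t v) (pv j t w) ≤ Real.sqrt 3072 := by
        intro v w h
        apply dist_le_of_sq dist_nonneg
        rcases link v.2 (show (w : ℕ) < v from h) with h2 | h6
        · exact ((dist_pv_pv j t h0 ht h).1 h2).le
        · exact (dist_pv_pv j t h0 ht h).2 h6.1
      intro v w
      rcases lt_trichotomy v w with h | h | h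
      · rw [dist_comm]
        exact key w v h
      · subst h
        rw [dist_self]
        exact Real.sqrt_nonneg _
      · exact key v w h
    rintro (v | i) (w | k)
    · exact hvv v w
    · exact (dist_eq_of_sq dist_nonneg (dist_pv_ap j t ht v k)).le
    · rw [dist_comm]
      exact (dist_eq_of_sq dist_nonneg (dist_pv_ap j t ht w i)).le
    · by_cases h : i = k
      · subst h
        rw [dist_self]
        exact Real.sqrt_nonneg _
      · exact (dist_eq_of_sq dist_nonneg (dist_ap_ap j h)).le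
  · by_contra hcon
    push Not at hcon
    have hinj : Function.Injective fun i : Fin j => c (Sum.inr i) := by
      intro i k hik
      by_contra h
      have := hcon (Sum.inr i) (Sum.inr k) hik
      exact absurd (dist_eq_of_sq dist_nonneg (dist_ap_ap j h)) (ne_of_lt this)
    set A : Finset (Fin (63 + j + 1)) := Finset.univ.image fun i : Fin j => c (Sum.inr i) with hA
    have hAcard : A.card = j := by
      rw [hA, Finset.card_image_of_injective _ hinj, Finset.card_univ, Fintype.card_fin]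
    have hAc : Aᶜ.card = 64 := by
      rw [Finset.card_compl, hAcard, Fintype.card_fin]
      omega
    have hmaps : ∀ v ∈ (Finset.univ : Finset (Fin 321)), c (Sum.inl v) ∈ Aᶜ := by
      intro v _
      rw [Finset.mem_compl, hA, Finset.mem_image]
      rintro ⟨i, -, hi⟩
      have := hcon (Sum.inl v) (Sum.inr i) hi.symm
      exact absurd (dist_eq_of_sq dist_nonneg (dist_pv_ap j t ht v i)) (ne_of_lt this)
    obtain ⟨y, -, hy⟩ := Finset.exists_lt_card_fiber_of_mul_lt_card_of_maps_to (n := 5) hmaps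
      (by rw [hAc]; simp)
    obtain ⟨v, hv, w, hw, hlt, hD⟩ := exists_far hy
    have h1 : c (Sum.inl v) = y := by simpa using hv
    have h2 : c (Sum.inl w) = y := by simpa using hw
    have := hcon (Sum.inl v) (Sum.inl w) (h1.trans h2.symm)
    exact absurd (dist_eq_of_sq dist_nonneg ((dist_pv_pv j t h0 ht hlt).1 hD)) (ne_of_lt this)

theorem not_borsuk_ge (d : ℕ) (hd : 63 ≤ d) : ¬ BorsukConjecture d := by
  obtain ⟨j, rfl⟩ := Nat.exists_eq_add_of_le hd
  exact not_borsuk j

end Vale.Agent.P052
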