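import Vale.Agent.P052.Data
import Vale.Agent.P052.DataAdj

namespace Vale.Agent.P052

/-- Evaluate the argument first. -/
noncomputable def strict {α : Type} (n : ℕ) (f : ℕ → α) : α :=
  Nat.rec (motive := fun _ => α) (f 0) (fun k _ => f (Nat.succ k)) n

theorem strict_eq {α : Type} (n : ℕ) (f : ℕ → α) : strict n f = f n := by
  cases n <;> rfl

/-- The digit of `x` at place `j` in base `2 ^ 16`. -/
def dig (x j : ℕ) : ℕ := x >>> (16 * j) % 65536

/-- The row with number `i`. -/
def row (i : ℕ) : ℕ := rows.getD i 0

/-- The repunit with 416 digits. -/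
def rep : ℕ := (65536 ^ 416 - 1) / 65535

/-- The sum of `(digit of r) * r` over the list; `s` is `16` times the place of the digit. -/
noncomputable def colDot (s : ℕ) (l : List ℕ) : ℕ :=
  List.rec (motive := fun _ => ℕ) 0
    (fun r _ ih => Nat.add (Nat.mul (Nat.mod (Nat.shiftRight r s) 65536) r) ih) l

/-- The check of the products. -/
noncomputable def chkDot : Bool :=
  strict rep fun E => (List.range 416).all fun i =>
    strict (16 * i) fun s => Nat.beq (colDot s rows) (96 * row i + 3456 * E)

/-- The check of the column sums. -/
noncomputable def chkSum : Bool :=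
  Nat.beq (List.rec (motive := fun _ => ℕ) 0 (fun r _ ih => Nat.add r ih) rows) (1248 * rep)

/-- All digits are smaller than 32. -/
noncomputable def chkMask : Bool :=
  strict (31 * rep) fun m => rows.all fun r => Nat.beq (Nat.land r m) r && Nat.blt r (2 ^ 6656)

/-- The check of the entries, and of the small masks. -/
noncomputable def chkLink : Bool :=
  (List.range 321).all fun v => strict (row (95 + v)) fun R => strict (adjL.getD v 0) fun a =>
    (Nat.beq v 0 || Nat.beq (dig R (95 + v)) 18) && (List.range v).all fun w =>
      strict (dig R (95 + w)) fun d =>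
        (Nat.beq d 2 || (Nat.beq d 6 && Nat.beq (Nat.land (Nat.shiftRight a (64 + w)) 1) 1))

end Vale.Agent.P052
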