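import Vale.Agent.P052.Check

namespace Vale.Agent.P052

theorem rows_length : rows.length = 416 := by decide +kernel

theorem chkSum_true : chkSum = true := by decide +kernel

theorem chkMask_true : chkMask = true := by decide +kernel

theorem chkTrace : ((List.range 416).map fun i => dig (row i) i).sum = 7296 := by decide +kernel

theorem chkCorner : dig (row 95) 95 = 16 := by decide +kernel

end Vale.Agent.P052
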