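import Vale.Agent.P052.Check

namespace Vale.Agent.P052

/-- Lists of pairs of numbers. -/
inductive VL : Type
  | nil : VL
  | cons (b r : ℕ) (t : VL) : VL

/-- The entries as a list. -/
def VL.ents : VL → List (ℕ × ℕ)
  | .nil => []
  | .cons b r t => (b, r) :: t.ents

/-- Keep the entries whose bit is in `m`. -/
noncomputable def VL.filt (m : ℕ) (t : VL) : VL :=
  VL.rec (motive := fun _ => VL) VL.nil
    (fun b r _ ih => Bool.rec (motive := fun _ => VL) ih (VL.cons b r ih)
      (Nat.beq (Nat.land (Nat.shiftRight m b) (nat_lit 1)) (nat_lit 1))) t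

/-- No entry has a bit of `m` from place 64 on. -/
noncomputable def lev0 (m : ℕ) (t : VL) : Bool :=
  VL.rec (motive := fun _ => Bool) true
    (fun _ r _ ih => Bool.rec (motive := fun _ => Bool) false ih
      (Nat.beq (Nat.shiftRight (Nat.land m r) (nat_lit 64)) (nat_lit 0))) t

/-- One more level of the search. -/
noncomputable def lev (next : ℕ → VL → Bool) (m : ℕ) (t : VL) : Bool :=
  VL.rec (motive := fun _ => Bool) true
    (fun _ r t' ih =>
      strict (Nat.land m r) fun m' => Bool.rec (motive := fun _ => Bool)
        (Bool.rec (motive := fun _ => Bool) false ih (next m' (VL.filt m' t'))) ih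
        (Nat.beq (Nat.shiftRight m' (nat_lit 64)) (nat_lit 0))) t

/-- Put the numbered entries of `l` on the list `t`. -/
noncomputable def mk (l : List ℕ) (b : ℕ) (t : VL) : VL :=
  List.rec (motive := fun _ => ℕ → VL → VL) (fun _ t => t)
    (fun r _ ih b t => strict (Nat.add 1 b) fun b' => ih b' (VL.cons b r t)) l b t

/-- The entries of the list `l` with numbers in the given range are searched. -/
noncomputable def chkSeg (lo len : ℕ) : Bool :=
  (List.range' lo len).all fun a => strict (adjL.getD a 0) fun r =>
    lev (lev (lev lev0)) r (VL.filt r (mk (adjL.take a) 64 VL.nil))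

theorem beq_bit (m b : ℕ) :
    Nat.beq (Nat.land (Nat.shiftRight m b) (nat_lit 1)) (nat_lit 1) = m.testBit b := by
  have h : Nat.land (Nat.shiftRight m b) (nat_lit 1) = (m >>> b) &&& 1 := rfl
  rw [h, Nat.testBit_eq_decide_div_mod_eq, Nat.shiftRight_eq_div_pow, Nat.and_one_is_mod]
  rcases Nat.mod_two_eq_zero_or_one (m / 2 ^ b) with h | h <;> rw [h] <;> rfl

theorem ents_filt (m : ℕ) (t : VL) :
    (VL.filt m t).ents = t.ents.filter fun e => m.testBit e.1 := by
  induction t with
  | nil => rfl
  | cons b r t ih =>
    show VL.ents (Bool.rec (motive := fun _ => VL) (VL.filt m t) (VL.cons b r (VL.filt m t))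
      (Nat.beq (Nat.land (Nat.shiftRight m b) (nat_lit 1)) (nat_lit 1))) = _
    rw [beq_bit]
    cases h : m.testBit b
    · simp [VL.ents, h, ih]
    · simp [VL.ents, h, ih]

/-- There are `k` entries in `L`, in the order of the list, which are in `m` and each of which is
in the mask of every earlier one. -/
def Clq (k m : ℕ) (L : List (ℕ × ℕ)) : Prop :=
  ∃ l : List (ℕ × ℕ), l.Sublist L ∧ l.length = k ∧
    l.Pairwise (fun e f => e.2.testBit f.1 = true) ∧ ∀ e ∈ l, m.testBit e.1 = true ∧ 64 ≤ e.1

theorem shift_zero {m b : ℕ} (h : Nat.beq (Nat.shiftRight m (nat_lit 64)) (nat_lit 0) = true)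
    (hb : 64 ≤ b) : m.testBit b = false := by
  have h1 : m >>> 64 = 0 := Nat.eq_of_beq_eq_true h
  have h2 : (m >>> 64).testBit (b - 64) = false := by rw [h1]; simp
  rw [Nat.testBit_shiftRight] at h2
  rwa [show 64 + (b - 64) = b by omega] at h2

theorem lev0_sound (m : ℕ) (t : VL) (h : lev0 m t = true) : ¬ Clq 2 m t.ents := by
  induction t with
  | nil =>
    rintro ⟨l, hl, hlen, -, -⟩
    simp only [VL.ents, List.sublist_nil] at hl
    subst hl
    simp at hlen
  | cons b r t ih =>
    have h' : (Bool.rec (motive := fun _ => Bool) false (lev0 m t)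
      (Nat.beq (Nat.shiftRight (Nat.land m r) (nat_lit 64)) (nat_lit 0))) = true := h
    rintro ⟨l, hl, hlen, hp, hm⟩
    cases hz : Nat.beq (Nat.shiftRight (Nat.land m r) (nat_lit 64)) (nat_lit 0) with
    | false => rw [hz] at h'; exact absurd h' (by simp)
    | true =>
      rw [hz] at h'
      cases hl with
      | cons _ hl => exact ih h' ⟨l, hl, hlen, hp, hm⟩
      | @cons_cons l' _ _ hl' =>
        match l', hlen, hp, hm with
        | [f], _, hp, hm =>
          have h1 : r.testBit f.1 = true := by simpa using hp
          have h2 := hm f (by simp)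
          have h3 := shift_zero hz h2.2
          have h4 : (m &&& r).testBit f.1 = false := h3
          rw [Nat.testBit_and, h2.1, h1] at h4
          exact absurd h4 (by simp)

theorem lev_sound (next : ℕ → VL → Bool) (k : ℕ)
    (hnext : ∀ m t, next m t = true → ¬ Clq (k + 1) m t.ents) (m : ℕ) (t : VL)
    (h : lev next m t = true) : ¬ Clq (k + 2) m t.ents := by
  induction t with
  | nil =>
    rintro ⟨l, hl, hlen, -, -⟩
    simp only [VL.ents, List.sublist_nil] at hl
    subst hl
    simp at hlen
  | cons b r t ih =>
    have h' : (strict (Nat.land m r) fun m' => Bool.rec (motive := fun _ => Bool)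
        (Bool.rec (motive := fun _ => Bool) false (lev next m t) (next m' (VL.filt m' t)))
        (lev next m t) (Nat.beq (Nat.shiftRight m' (nat_lit 64)) (nat_lit 0))) = true := h
    rw [strict_eq] at h'
    rintro ⟨l, hl, hlen, hp, hm⟩
    have hrest : lev next m t = true ∧
        (Nat.beq (Nat.shiftRight (Nat.land m r) (nat_lit 64)) (nat_lit 0) = true ∨
          next (Nat.land m r) (VL.filt (Nat.land m r) t) = true) := by
      cases hz : Nat.beq (Nat.shiftRight (Nat.land m r) (nat_lit 64)) (nat_lit 0) with
      | true => rw [hz] at h'; exact ⟨h', Or.inl rfl⟩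
      | false =>
        rw [hz] at h'
        cases hn : next (Nat.land m r) (VL.filt (Nat.land m r) t) with
        | true =>
          simp only [hn] at h'
          exact ⟨h', Or.inr rfl⟩
        | false =>
          simp only [hn] at h'
          exact absurd h' (by simp)
    cases hl with
    | cons _ hl => exact ih hrest.1 ⟨l, hl, hlen, hp, hm⟩
    | @cons_cons l' _ _ hl' =>
      rw [List.pairwise_cons] at hp
      have hlen' : l'.length = k + 1 := by simpa using hlen
      have hmr : ∀ f ∈ l', (Nat.land m r).testBit f.1 = true := by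
        intro f hf
        have h1 := hp.1 f hf
        have h2 := (hm f (by simp [hf])).1
        show (m &&& r).testBit f.1 = true
        rw [Nat.testBit_and, h2]
        simpa using h1
      rcases hrest.2 with hz | hn
      · obtain ⟨f, hf⟩ := List.exists_mem_of_length_pos (l := l') (by omega)
        have h3 := shift_zero hz (hm f (by simp [hf])).2
        rw [hmr f hf] at h3
        exact absurd h3 (by simp)
      · refine hnext _ _ hn ⟨l', ?_, hlen', hp.2, fun f hf => ⟨hmr f hf, (hm f (by simp [hf])).2⟩⟩
        rw [ents_filt]
        have : l'.filter (fun e => (Nat.land m r).testBit e.1) = l' := by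
          rw [List.filter_eq_self]
          exact hmr
        rw [← this]
        exact hl'.filter _

theorem ents_mk (l : List ℕ) (b : ℕ) (t : VL) :
    (mk l b t).ents = ((List.range l.length).reverse.map fun i => (b + i, l.getD i 0)) ++ t.ents := by
  induction l generalizing b t with
  | nil => rfl
  | cons r l ih =>
    have h : mk (r :: l) b t = strict (Nat.add 1 b) fun b' => mk l b' (VL.cons b r t) := rfl
    rw [h, strict_eq, ih]
    rw [List.length_cons, List.range_succ_eq_map, List.reverse_cons, List.map_append,
      List.append_assoc]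
    congr 1
    · rw [← List.map_reverse, List.map_map]
      apply List.map_congr_left
      intro i _
      simp only [Function.comp_apply, List.getD_cons_succ, Prod.mk.injEq, and_true]
      show 1 + b + i = b + (i + 1)
      omega

/-- Adjacency of the vertices with numbers `a > w`. -/
def Adj (a w : ℕ) : Prop := (adjL.getD a 0).testBit (64 + w) = true

theorem adjL_length : adjL.length = 321 := by decide +kernel

theorem no_six {lo len : ℕ} (h : chkSeg lo len = true) {a : ℕ} (h1 : lo ≤ a) (h2 : a < lo + len)
    (h3 : a < 321) (l : List ℕ) (hl : l.length = 5) (hs : (a :: l).Pairwise (· > ·))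
    (hp : (a :: l).Pairwise Adj) : False := by
  have h' : lev (lev (lev lev0)) (adjL.getD a 0)
      (VL.filt (adjL.getD a 0) (mk (adjL.take a) 64 VL.nil)) = true := by
    simp only [chkSeg, List.all_eq_true, List.mem_range'_1] at h
    have := h a ⟨h1, h2⟩
    rwa [strict_eq] at this
  refine lev_sound _ 3 (lev_sound _ 2 (lev_sound _ 1 lev0_sound)) _ _ h' ?_
  rw [List.pairwise_cons] at hs hp
  have hlt : ∀ w ∈ l, w < a := fun w hw => hs.1 w hw
  refine ⟨l.map fun i => (64 + i, adjL.getD i 0), ?_, by simpa using hl, ?_, ?_⟩
  · rw [ents_filt]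
    have hsub : (l.map fun i => (64 + i, adjL.getD i 0)).Sublist
        (mk (adjL.take a) 64 VL.nil).ents := by
      rw [ents_mk]
      have hlen : (adjL.take a).length = a := by
        rw [List.length_take, adjL_length]; omega
      rw [hlen]
      have h4 : l.Sublist (List.range a).reverse := by
        refine List.sublist_of_subperm_of_pairwise (r := (· ≥ ·)) ?_
          (hs.2.imp fun h => le_of_lt h) ?_
        · refine List.Nodup.subperm (hs.2.imp fun h => ne_of_gt h) ?_
          intro w hw
          simpa using hlt w hw
        · rw [List.pairwise_reverse]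
          exact List.pairwise_le_range
      have h5 := h4.map fun i => (64 + i, (adjL.take a).getD i 0)
      have h6 : (l.map fun i => (64 + i, adjL.getD i 0)) =
          l.map fun i => (64 + i, (adjL.take a).getD i 0) := by
        apply List.map_congr_left
        intro i hi
        have := hlt i hi
        simp [List.getD_eq_getElem?_getD, List.getElem?_take, this]
      rw [h6]
      simpa [VL.ents] using h5
    have h7 := hsub.filter fun e => (adjL.getD a 0).testBit e.1
    rwa [List.filter_eq_self.mpr] at h7
    intro e he
    rw [List.mem_map] at he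
    obtain ⟨w, hw, rfl⟩ := he
    exact hp.1 w hw
  · rw [List.pairwise_map]
    exact hp.2
  · intro e he
    rw [List.mem_map] at he
    obtain ⟨w, hw, rfl⟩ := he
    exact ⟨hp.1 w hw, by simp⟩

end Vale.Agent.P052
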