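import Mathlib

namespace Vale.Agent.P052

/-- Borsuk's conjecture in dimension `d`: every bounded subset of `ℝ^d` of positive diameter is a
union of `d + 1` subsets, each of diameter strictly smaller than the diameter of the whole set. -/
def BorsukConjecture (d : ℕ) : Prop :=
  ∀ Y : Set (EuclideanSpace ℝ (Fin d)), Bornology.IsBounded Y → 0 < Metric.diam Y →
    ∃ A : Fin (d + 1) → Set (EuclideanSpace ℝ (Fin d)),
      (⋃ i, A i) = Y ∧ ∀ i, Metric.diam (A i) < Metric.diam Y

end Vale.Agent.P052
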