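import Vale.Agent.P052.Defs

namespace Vale.Agent.P052

open Module

theorem not_borsuk_of_points {d : ℕ} {E : Type*} [NormedAddCommGroup E] [InnerProductSpace ℝ E]
    [FiniteDimensional ℝ E] (hd : finrank ℝ E = d) {ι : Type*} [Finite ι] (p : ι → E) (D : ℝ)
    (hD : 0 < D) (hle : ∀ i j, dist (p i) (p j) ≤ D)
    (hcol : ∀ c : ι → Fin (d + 1), ∃ i j, c i = c j ∧ D ≤ dist (p i) (p j)) :
    ¬ BorsukConjecture d := by
  intro hB
  have e : OrthonormalBasis (Fin d) ℝ E := (stdOrthonormalBasis ℝ E).reindex (finCongr hd)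
  let φ : E ≃ₗᵢ[ℝ] EuclideanSpace ℝ (Fin d) := e.repr
  set Y : Set (EuclideanSpace ℝ (Fin d)) := Set.range (fun i => φ (p i)) with hY
  have hbd : Bornology.IsBounded Y := (Set.finite_range _).isBounded
  have hdist : ∀ i j, dist (φ (p i)) (φ (p j)) = dist (p i) (p j) := fun i j => φ.dist_map _ _
  have hdiam : Metric.diam Y ≤ D := by
    apply Metric.diam_le_of_forall_dist_le hD.le
    rintro _ ⟨i, rfl⟩ _ ⟨j, rfl⟩
    simpa [hdist] using hle i j
  have hpos : 0 < Metric.diam Y := by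
    obtain ⟨i, j, -, hij⟩ := hcol (fun _ => 0)
    have := Metric.dist_le_diam_of_mem hbd (show φ (p i) ∈ Y from ⟨i, rfl⟩)
      (show φ (p j) ∈ Y from ⟨j, rfl⟩)
    rw [hdist] at this
    linarith
  obtain ⟨A, hA, hlt⟩ := hB Y hbd hpos
  have hmem : ∀ i, ∃ m, φ (p i) ∈ A m := by
    intro i
    have : φ (p i) ∈ ⋃ m, A m := by rw [hA]; exact ⟨i, rfl⟩
    simpa using this
  choose c hc using hmem
  obtain ⟨i, j, hij, hd'⟩ := hcol c
  have hsub : A (c i) ⊆ Y := by rw [← hA]; exact Set.subset_iUnion A (c i)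
  have := Metric.dist_le_diam_of_mem (hbd.subset hsub) (hc i) (by rw [hij]; exact hc j)
  rw [hdist] at this
  linarith [hlt (c i)]

end Vale.Agent.P052
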