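import Vale.Agent.P052.Mat
import Vale.Agent.P052.Key
import Vale.Agent.P052.Clq

namespace Vale.Agent.P052

open Finset Module Matrix

/-- The real matrix. -/
def Nm : Matrix (Fin 416) (Fin 416) ℝ := Matrix.of fun i j => (D i j : ℝ) - 3

theorem Nm_apply (i j : Fin 416) : Nm i j = (D i j : ℝ) - 3 := rfl

theorem Nm_gram : Nmᵀ * Nm = (96 : ℝ) • Nm := by
  ext i j
  rw [Matrix.mul_apply, Matrix.smul_apply, Nm_apply, smul_eq_mul]
  simp only [Matrix.transpose_apply, Nm_apply]
  have h1 : ∑ k : Fin 416, ((D k i : ℝ) - 3) * ((D k j : ℝ) - 3) =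
      ∑ k ∈ range 416, ((D k i : ℝ) - 3) * ((D k j : ℝ) - 3) :=
    Fin.sum_univ_eq_sum_range (fun k => ((D k i : ℝ) - 3) * ((D k j : ℝ) - 3)) 416
  rw [h1]
  have h2 : ∑ k ∈ range 416, ((D k i : ℝ) - 3) * ((D k j : ℝ) - 3) =
      ((∑ k ∈ range 416, D k i * D k j : ℕ) : ℝ) - 3 * ((∑ k ∈ range 416, D k i : ℕ) : ℝ)
        - 3 * ((∑ k ∈ range 416, D k j : ℕ) : ℝ) + 9 * 416 := by
    push_cast
    rw [Finset.mul_sum, Finset.mul_sum, ← Finset.sum_sub_distrib, ← Finset.sum_sub_distrib]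
    have h3 : (9 * 416 : ℝ) = ∑ k ∈ range 416, (9 : ℝ) := by simp; norm_num
    rw [h3, ← Finset.sum_add_distrib]
    apply Finset.sum_congr rfl
    intro k _
    ring
  rw [h2, gram i.2 j.2, col_sum i.2, col_sum j.2]
  push_cast
  ring

theorem Nm_symm : Nmᵀ = Nm := by
  have h1 : (Nmᵀ * Nm)ᵀ = Nmᵀ * Nm := by
    rw [Matrix.transpose_mul, Matrix.transpose_transpose]
  rw [Nm_gram, Matrix.transpose_smul] at h1
  exact smul_right_injective _ (show (96 : ℝ) ≠ 0 by norm_num) h1

theorem Nm_sq : Nm * Nm = (96 : ℝ) • Nm := by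
  have := Nm_gram
  rwa [Nm_symm] at this

/-- The projection. -/
noncomputable def Pr : EuclideanSpace ℝ (Fin 416) →ₗ[ℝ] EuclideanSpace ℝ (Fin 416) :=
  Matrix.toEuclideanLin ((1 / 96 : ℝ) • Nm)

/-- The space of dimension 63. -/
noncomputable def U : Submodule ℝ (EuclideanSpace ℝ (Fin 416)) := LinearMap.range Pr

theorem Pr_Pr (x : EuclideanSpace ℝ (Fin 416)) : Pr (Pr x) = Pr x := by
  have h : ((1 / 96 : ℝ) • Nm) * ((1 / 96 : ℝ) • Nm) = (1 / 96 : ℝ) • Nm := by
    rw [Matrix.smul_mul, Matrix.mul_smul, Nm_sq, smul_smul, smul_smul]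
    norm_num
  unfold Pr
  rw [Matrix.toLpLin_apply, Matrix.toLpLin_apply]
  simp only [WithLp.ofLp_toLp, Matrix.mulVec_mulVec, h]

theorem isProj : LinearMap.IsProj U Pr where
  map_mem x := ⟨x, rfl⟩
  map_id := by
    rintro _ ⟨x, rfl⟩
    exact Pr_Pr x

theorem trace_Pr : LinearMap.trace ℝ _ Pr = 63 := by
  rw [LinearMap.trace_eq_matrix_trace ℝ (EuclideanSpace.basisFun (Fin 416) ℝ).toBasis]
  unfold Pr
  rw [Matrix.toEuclideanLin_eq_toLin_orthonormal, LinearMap.toMatrix_toLin, Matrix.trace_smul,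
    Matrix.trace]
  simp only [Matrix.diag_apply, Nm_apply]
  have h1 : ∑ k : Fin 416, ((D k k : ℝ) - 3) = ∑ k ∈ range 416, ((D k k : ℝ) - 3) :=
    Fin.sum_univ_eq_sum_range (fun k => ((D k k : ℝ) - 3)) 416
  rw [h1, Finset.sum_sub_distrib, ← Nat.cast_sum, trace_sum]
  simp
  norm_num

theorem finrank_U : finrank ℝ U = 63 := by
  have h := LinearMap.IsProj.trace isProj
  rw [trace_Pr] at h
  exact_mod_cast h.symm

/-- The columns of the matrix as vectors. -/
noncomputable def col (i : Fin 416) : EuclideanSpace ℝ (Fin 416) := WithLp.toLp 2 (Nmᵀ i)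

theorem inner_col (i j : Fin 416) : inner ℝ (col i) (col j) = 96 * Nm i j := by
  unfold col
  rw [inner_matrix_col_col, Matrix.conjTranspose_eq_transpose_of_trivial, Nm_gram]
  rfl

theorem col_mem (i : Fin 416) : col i ∈ U := by
  refine ⟨col i, ?_⟩
  unfold Pr col
  rw [Matrix.toLpLin_apply]
  congr 1
  ext k
  simp only [WithLp.ofLp_toLp]
  have h : (((1 / 96 : ℝ) • Nm) * Nm) k i = Nm k i := by
    rw [Matrix.smul_mul, Nm_sq, smul_smul]
    norm_num
  rw [Matrix.transpose_apply, ← h]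
  rfl

/-- The factor of the vertex `v`. -/
noncomputable def fac (v : Fin 321) : ℝ := if v = 0 then (-1 + Real.sqrt 222) / 13 else 1

/-- The number of the vertex `v`. -/
def num (v : Fin 321) : Fin 416 := ⟨95 + v, by omega⟩

/-- The points. -/
noncomputable def pt (v : Fin 321) : U := fac v • ⟨col (num v), col_mem _⟩

theorem inner_pt (v w : Fin 321) :
    inner ℝ (pt v) (pt w) = fac v * fac w * (96 * Nm (num v) (num w)) := by
  have h : inner ℝ (pt v) (pt w) =
      inner ℝ (fac v • col (num v)) (fac w • col (num w)) := rfl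
  rw [h, real_inner_smul_left, real_inner_smul_right, inner_col]
  ring

theorem sqrt_bounds : 14 < Real.sqrt 222 ∧ Real.sqrt 222 ^ 2 = 222 := by
  refine ⟨?_, Real.sq_sqrt (by norm_num)⟩
  rw [show (14 : ℝ) = Real.sqrt (14 ^ 2) by rw [Real.sqrt_sq (by norm_num)]]
  exact Real.sqrt_lt_sqrt (by norm_num) (by norm_num)

theorem Nm_num (v w : Fin 321) : Nm (num v) (num w) = (D (95 + v) (95 + w) : ℝ) - 3 := rfl

theorem dist_pt_sq (v w : Fin 321) (h : w < v) :
    (D (95 + v) (95 + w) = 2 → dist (pt v) (pt w) ^ 2 = 3072) ∧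
      (D (95 + v) (95 + w) = 6 → dist (pt v) (pt w) ^ 2 ≤ 3072) := by
  have hv : v ≠ 0 := by
    rintro rfl
    exact absurd h (by simp)
  have hv' : (v : ℕ) ≠ 0 := fun h => hv (Fin.ext h)
  have e : dist (pt v) (pt w) ^ 2 =
      fac v * fac v * (96 * Nm (num v) (num v)) - 2 * (fac v * fac w * (96 * Nm (num v) (num w))) +
        fac w * fac w * (96 * Nm (num w) (num w)) := by
    rw [dist_eq_norm, norm_sub_sq_real, ← real_inner_self_eq_norm_sq, ← real_inner_self_eq_norm_sq,
      inner_pt, inner_pt, inner_pt]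
  have hfv : fac v = 1 := by simp [fac, hv]
  have hvv : Nm (num v) (num v) = 15 := by
    rw [Nm_num, diag v.2 hv']
    norm_num
  by_cases hw : w = 0
  · subst hw
    have hfw : fac 0 = (-1 + Real.sqrt 222) / 13 := by simp [fac]
    have hww : Nm (num 0) (num 0) = 13 := by
      rw [Nm_num]
      have : D (95 + ((0 : Fin 321) : ℕ)) (95 + ((0 : Fin 321) : ℕ)) = 16 := chkCorner
      rw [this]
      norm_num
    obtain ⟨hs1, hs2⟩ := sqrt_bounds
    rw [e, hfv, hfw, hvv, hww, Nm_num]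
    constructor
    · intro h2
      rw [h2]
      push_cast
      nlinarith
    · intro h6
      rw [h6]
      push_cast
      nlinarith
  · have hw' : (w : ℕ) ≠ 0 := fun h => hw (Fin.ext h)
    have hfw : fac w = 1 := by simp [fac, hw]
    have hww : Nm (num w) (num w) = 15 := by
      rw [Nm_num, diag w.2 hw']
      norm_num
    rw [e, hfv, hfw, hvv, hww, Nm_num]
    constructor
    · intro h2
      rw [h2]
      push_cast
      norm_num
    · intro h6
      rw [h6]
      push_cast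
      norm_num

theorem dist_le (v w : Fin 321) : dist (pt v) (pt w) ≤ Real.sqrt 3072 := by
  rw [← abs_of_nonneg (dist_nonneg (x := pt v) (y := pt w)), ← Real.sqrt_sq_eq_abs]
  apply Real.sqrt_le_sqrt
  rcases lt_trichotomy v w with h | h | h
  · rw [dist_comm]
    rcases link w.2 (show (v : ℕ) < w from h) with h2 | h6
    · exact ((dist_pt_sq w v h).1 h2).le
    · exact (dist_pt_sq w v h).2 h6.1
  · subst h
    simp
  · rcases link v.2 (show (w : ℕ) < v from h) with h2 | h6
    · exact ((dist_pt_sq v w h).1 h2).le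
    · exact (dist_pt_sq v w h).2 h6.1

theorem adj_of_dist_lt {v w : Fin 321} (h : w < v) (hd : dist (pt v) (pt w) < Real.sqrt 3072) :
    Adj v w := by
  rcases link v.2 (show (w : ℕ) < v from h) with h2 | h6
  · exfalso
    have := (dist_pt_sq v w h).1 h2
    have h3 : Real.sqrt 3072 = dist (pt v) (pt w) := by
      rw [← this, Real.sqrt_sq dist_nonneg]
    rw [h3] at hd
    exact lt_irrefl _ hd
  · exact h6.2

end Vale.Agent.P052
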