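import Vale.Agent.P052.Geom
import Vale.Agent.P052.Seg0
import Vale.Agent.P052.Seg1
import Vale.Agent.P052.Seg2
import Vale.Agent.P052.Seg3
import Vale.Agent.P052.Seg4
import Vale.Agent.P052.Seg5
import Vale.Agent.P052.Seg6
import Vale.Agent.P052.Seg7

namespace Vale.Agent.P052

theorem no_clique (a : ℕ) (h3 : a < 321) (l : List ℕ) (hl : l.length = 5)
    (hs : (a :: l).Pairwise (· > ·)) (hp : (a :: l).Pairwise Adj) : False := by
  rcases lt_or_ge a 178 with h | h
  · exact no_six seg0 (by omega) (by omega) h3 l hl hs hp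
  rcases lt_or_ge a 220 with h' | h
  · exact no_six seg1 h (by omega) h3 l hl hs hp
  rcases lt_or_ge a 246 with h' | h
  · exact no_six seg2 h (by omega) h3 l hl hs hp
  rcases lt_or_ge a 266 with h' | h
  · exact no_six seg3 h (by omega) h3 l hl hs hp
  rcases lt_or_ge a 283 with h' | h
  · exact no_six seg4 h (by omega) h3 l hl hs hp
  rcases lt_or_ge a 297 with h' | h
  · exact no_six seg5 h (by omega) h3 l hl hs hp
  rcases lt_or_ge a 310 with h' | h
  · exact no_six seg6 h (by omega) h3 l hl hs hp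
  · exact no_six seg7 h (by omega) h3 l hl hs hp

theorem not_borsuk_63 : ¬ BorsukConjecture 63 := by
  refine not_borsuk_of_points finrank_U pt (Real.sqrt 3072) (Real.sqrt_pos.mpr (by norm_num))
    dist_le (fun c => ?_)
  by_contra hcon
  push Not at hcon
  obtain ⟨y, hy⟩ := Fintype.exists_lt_card_fiber_of_mul_lt_card (f := c) (n := 5) (by simp)
  set F : Finset ℕ := (Finset.univ.filter fun x => c x = y).image (fun x : Fin 321 => (x : ℕ))
    with hF
  have hcard : 5 < F.card := by
    rw [hF, Finset.card_image_of_injective _ Fin.val_injective]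
    exact hy
  set l : List ℕ := (F.sort (· ≥ ·)).take 6 with hl
  have hlen : l.length = 6 := by
    rw [hl, List.length_take, Finset.length_sort]
    omega
  have hmem : ∀ v ∈ l, ∃ x : Fin 321, (x : ℕ) = v ∧ c x = y := by
    intro v hv
    have h1 : v ∈ F.sort (· ≥ ·) := List.mem_of_mem_take hv
    rw [Finset.mem_sort, hF, Finset.mem_image] at h1
    obtain ⟨x, hx, hxv⟩ := h1
    exact ⟨x, hxv, by simpa using hx⟩
  have hs : l.Pairwise (· > ·) := by
    have h1 : (F.sort (· ≥ ·)).Pairwise (· > ·) := by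
      have h2 := Finset.pairwise_sort F (· ≥ ·)
      have h3 : (F.sort (· ≥ ·)).Pairwise (· ≠ ·) := Finset.sort_nodup F (· ≥ ·)
      exact (h2.and h3).imp fun h => lt_of_le_of_ne h.1 h.2.symm
    exact h1.sublist (List.take_sublist _ _)
  have hp : l.Pairwise Adj := by
    refine hs.imp_of_mem fun {a b} ha hb hab => ?_
    obtain ⟨x, rfl, hx⟩ := hmem a ha
    obtain ⟨z, rfl, hz⟩ := hmem b hb
    exact adj_of_dist_lt hab (hcon x z (hx.trans hz.symm))
  match l, hlen, hs, hp, hmem with
  | a :: l', hlen, hs, hp, hmem =>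
    obtain ⟨x, rfl, -⟩ := hmem a (by simp)
    exact no_clique _ x.2 l' (by simpa using hlen) hs hp

end Vale.Agent.P052
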