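import Vale.Agent.P052.CheckA
import Vale.Agent.P052.CheckB
import Vale.Agent.P052.CheckC

namespace Vale.Agent.P052

open Finset

theorem dig_eq (x j : ℕ) : dig x j = x / 65536 ^ j % 65536 := by
  unfold dig
  rw [Nat.shiftRight_eq_div_pow, pow_mul]
  norm_num

theorem sum_digits : ∀ (n x : ℕ), x < 65536 ^ n → ∑ j ∈ range n, dig x j * 65536 ^ j = x := by
  intro n
  induction n with
  | zero => intro x hx; simp at hx; simp [hx]
  | succ n ih =>
    intro x hx
    rw [Finset.sum_range_succ']
    have h1 : x / 65536 < 65536 ^ n := by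
      apply Nat.div_lt_of_lt_mul
      calc x < 65536 ^ (n + 1) := hx
        _ = 65536 * 65536 ^ n := by rw [pow_succ, mul_comm]
    have h2 := ih (x / 65536) h1
    have h3 : ∑ j ∈ range n, dig x (j + 1) * 65536 ^ (j + 1) = (x / 65536) * 65536 := by
      conv_rhs => rw [← h2]
      rw [Finset.sum_mul]
      apply Finset.sum_congr rfl
      intro j _
      rw [dig_eq, dig_eq, Nat.div_div_eq_div_mul, pow_succ, mul_comm 65536 (65536 ^ j), mul_assoc]
    rw [h3, dig_eq]
    simp only [pow_zero, Nat.div_one, mul_one]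
    omega

theorem digits_unique : ∀ (n : ℕ) (a b : ℕ → ℕ), (∀ j < n, a j < 65536) → (∀ j < n, b j < 65536) →
    ∑ j ∈ range n, a j * 65536 ^ j = ∑ j ∈ range n, b j * 65536 ^ j → ∀ j < n, a j = b j := by
  intro n
  induction n with
  | zero => intro a b _ _ _ j hj; exact absurd hj (Nat.not_lt_zero _)
  | succ n ih =>
    intro a b ha hb h j hj
    rw [Finset.sum_range_succ', Finset.sum_range_succ'] at h
    have key : ∀ c : ℕ → ℕ, ∑ j ∈ range n, c (j + 1) * 65536 ^ (j + 1) =
        (∑ j ∈ range n, c (j + 1) * 65536 ^ j) * 65536 := by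
      intro c
      rw [Finset.sum_mul]
      apply Finset.sum_congr rfl
      intro j _
      rw [pow_succ, mul_assoc]
    rw [key a, key b] at h
    simp only [pow_zero, mul_one] at h
    have h0a := ha 0 (by omega)
    have h0b := hb 0 (by omega)
    have e0 : a 0 = b 0 := by omega
    have e1 : ∑ j ∈ range n, a (j + 1) * 65536 ^ j = ∑ j ∈ range n, b (j + 1) * 65536 ^ j := by
      omega
    cases j with
    | zero => exact e0
    | succ j =>
      exact ih (fun j => a (j + 1)) (fun j => b (j + 1)) (fun j hj => ha _ (by omega))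
        (fun j hj => hb _ (by omega)) e1 j (by omega)

theorem sum_lt : ∀ (n : ℕ) (a : ℕ → ℕ), (∀ j < n, a j < 65536) →
    ∑ j ∈ range n, a j * 65536 ^ j < 65536 ^ n := by
  intro n a ha
  induction n with
  | zero => simp
  | succ n ih =>
    rw [Finset.sum_range_succ, pow_succ]
    have h1 := ih (fun j hj => ha j (by omega))
    have h2 : a n * 65536 ^ n ≤ 65535 * 65536 ^ n :=
      Nat.mul_le_mul_right _ (by have := ha n (by omega); omega)
    nlinarith

theorem dig_sum (n : ℕ) (a : ℕ → ℕ) (ha : ∀ j < n, a j < 65536) (j : ℕ) (hj : j < n) :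
    dig (∑ j ∈ range n, a j * 65536 ^ j) j = a j := by
  refine digits_unique n _ a (fun j _ => ?_) ha (sum_digits n _ (sum_lt n a ha)) j hj
  rw [dig_eq]
  exact Nat.mod_lt _ (by norm_num)

theorem dig_lt (x j : ℕ) : dig x j < 65536 := by
  rw [dig_eq]
  exact Nat.mod_lt _ (by norm_num)

theorem rep_eq : rep = ∑ j ∈ range 416, 65536 ^ j :=
  (Nat.geomSum_eq (by norm_num) 416).symm

theorem mul_rep (c : ℕ) : c * rep = ∑ j ∈ range 416, c * 65536 ^ j := by
  rw [rep_eq, Finset.mul_sum]

/-- The entry with numbers `i`, `j`. -/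
def D (i j : ℕ) : ℕ := dig (row i) j

theorem row_mem {i : ℕ} (hi : i < 416) : row i ∈ rows := by
  have : i < rows.length := by rw [rows_length]; exact hi
  unfold row
  rw [List.getD_eq_getElem _ _ this]
  exact List.getElem_mem this

theorem row_lt {i : ℕ} (hi : i < 416) : row i < 65536 ^ 416 := by
  have h := chkMask_true
  unfold chkMask at h
  rw [strict_eq, List.all_eq_true] at h
  have := h _ (row_mem hi)
  rw [Bool.and_eq_true] at this
  have h2 : row i < 2 ^ 6656 := by
    have := this.2
    rw [Nat.blt_eq] at this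
    exact this
  calc row i < 2 ^ 6656 := h2
    _ = 65536 ^ 416 := by
      rw [show (65536 : ℕ) = 2 ^ 16 by norm_num, ← pow_mul]

theorem row_eq {i : ℕ} (hi : i < 416) : ∑ j ∈ range 416, D i j * 65536 ^ j = row i :=
  sum_digits 416 _ (row_lt hi)

theorem D_le {i : ℕ} (hi : i < 416) {j : ℕ} (hj : j < 416) : D i j ≤ 31 := by
  have h := chkMask_true
  unfold chkMask at h
  rw [strict_eq, List.all_eq_true] at h
  have := h _ (row_mem hi)
  rw [Bool.and_eq_true] at this
  have h2 : row i &&& (31 * rep) = row i := Nat.eq_of_beq_eq_true this.1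
  have h3 : D i j = D i j &&& dig (31 * rep) j := by
    unfold D
    conv_lhs => rw [← h2]
    rw [dig_eq, dig_eq, dig_eq, show (65536 : ℕ) ^ j = 2 ^ (16 * j) by rw [pow_mul]; norm_num,
      show (65536 : ℕ) = 2 ^ 16 by norm_num, Nat.and_div_two_pow, Nat.and_mod_two_pow]
  have h4 : dig (31 * rep) j = 31 := by
    rw [mul_rep]
    exact dig_sum 416 (fun _ => 31) (fun _ _ => by norm_num) j hj
  rw [h4] at h3
  rw [h3]
  exact Nat.and_le_right

theorem list_sum_eq (l : List ℕ) (f : ℕ → ℕ) :
    (l.map f).sum = ∑ k ∈ range l.length, f (l.getD k 0) := by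
  induction l with
  | nil => simp
  | cons a l ih =>
    rw [List.map_cons, List.sum_cons, List.length_cons, Finset.sum_range_succ', ih]
    simp [add_comm]

theorem colDot_eq (s : ℕ) (l : List ℕ) :
    colDot s l = (l.map fun r => (r >>> s % 65536) * r).sum := by
  induction l with
  | nil => rfl
  | cons a l ih =>
    rw [List.map_cons, List.sum_cons, ← ih]
    rfl

theorem colSum_eq (l : List ℕ) :
    (List.rec (motive := fun _ => ℕ) 0 (fun r _ ih => Nat.add r ih) l : ℕ) = (l.map id).sum := by
  induction l with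
  | nil => rfl
  | cons a l ih =>
    rw [List.map_cons, List.sum_cons, ← ih]
    rfl

theorem col_sum {j : ℕ} (hj : j < 416) : ∑ k ∈ range 416, D k j = 1248 := by
  have h := chkSum_true
  unfold chkSum at h
  have h := Nat.eq_of_beq_eq_true h
  rw [colSum_eq, list_sum_eq, rows_length, mul_rep] at h
  have h2 : ∑ k ∈ range 416, id (rows.getD k 0) =
      ∑ j ∈ range 416, (∑ k ∈ range 416, D k j) * 65536 ^ j := by
    simp_rw [Finset.sum_mul]
    rw [Finset.sum_comm]
    apply Finset.sum_congr rfl
    intro k hk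
    exact (row_eq (Finset.mem_range.mp hk)).symm
  rw [h2] at h
  refine digits_unique 416 _ _ (fun j hj => ?_) (fun j hj => ?_) h j hj
  · calc ∑ k ∈ range 416, D k j ≤ ∑ k ∈ range 416, 31 :=
          Finset.sum_le_sum fun k hk => D_le (Finset.mem_range.mp hk) hj
      _ < 65536 := by simp
  · norm_num

theorem gram {i j : ℕ} (hi : i < 416) (hj : j < 416) :
    ∑ k ∈ range 416, D k i * D k j = 96 * D i j + 3456 := by
  have h := chkDot_true
  unfold chkDot at h
  rw [strict_eq, List.all_eq_true] at h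
  have h := h i (by simpa using hi)
  rw [strict_eq] at h
  have h := Nat.eq_of_beq_eq_true h
  rw [colDot_eq, list_sum_eq, rows_length, mul_rep] at h
  have h1 : ∑ k ∈ range 416, (rows.getD k 0 >>> (16 * i) % 65536) * rows.getD k 0 =
      ∑ j ∈ range 416, (∑ k ∈ range 416, D k i * D k j) * 65536 ^ j := by
    simp_rw [Finset.sum_mul]
    rw [Finset.sum_comm]
    apply Finset.sum_congr rfl
    intro k hk
    have h3 : rows.getD k 0 >>> (16 * i) % 65536 * rows.getD k 0 =
        D k i * ∑ j ∈ range 416, D k j * 65536 ^ j := by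
      rw [row_eq (Finset.mem_range.mp hk)]
      rfl
    rw [h3, Finset.mul_sum]
    apply Finset.sum_congr rfl
    intro j _
    rw [mul_assoc]
  have h2 : 96 * row i + ∑ j ∈ range 416, 3456 * 65536 ^ j =
      ∑ j ∈ range 416, (96 * D i j + 3456) * 65536 ^ j := by
    rw [← row_eq hi, Finset.mul_sum, ← Finset.sum_add_distrib]
    apply Finset.sum_congr rfl
    intro j _
    ring
  rw [h1, h2] at h
  refine digits_unique 416 _ _ (fun j hj => ?_) (fun j hj => ?_) h j hj
  · calc ∑ k ∈ range 416, D k i * D k j ≤ ∑ k ∈ range 416, D k i * 31 :=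
          Finset.sum_le_sum fun k hk => Nat.mul_le_mul_left _ (D_le (Finset.mem_range.mp hk) hj)
      _ = 1248 * 31 := by rw [← Finset.sum_mul, col_sum hi]
      _ < 65536 := by norm_num
  · have := D_le hi hj
    omega

theorem trace_sum : ∑ i ∈ range 416, D i i = 7296 := by
  rw [← chkTrace]
  rfl

theorem link {v w : ℕ} (hv : v < 321) (hw : w < v) :
    D (95 + v) (95 + w) = 2 ∨
      (D (95 + v) (95 + w) = 6 ∧ (adjL.getD v 0).testBit (64 + w) = true) := by
  have h := chkLink_true
  unfold chkLink at h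
  rw [List.all_eq_true] at h
  have h := h v (by simpa using hv)
  rw [strict_eq, strict_eq, Bool.and_eq_true, List.all_eq_true] at h
  have h := h.2 w (by simpa using hw)
  rw [strict_eq, Bool.or_eq_true, Bool.and_eq_true] at h
  rcases h with h | ⟨h, h'⟩
  · exact Or.inl (Nat.eq_of_beq_eq_true h)
  · refine Or.inr ⟨Nat.eq_of_beq_eq_true h, ?_⟩
    have h2 : ((adjL.getD v 0) >>> (64 + w)) &&& 1 = 1 := Nat.eq_of_beq_eq_true h'
    rw [Nat.testBit, Nat.and_comm, h2]
    rfl

theorem diag {v : ℕ} (hv : v < 321) (h0 : v ≠ 0) : D (95 + v) (95 + v) = 18 := by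
  have h := chkLink_true
  unfold chkLink at h
  rw [List.all_eq_true] at h
  have h := h v (by simpa using hv)
  rw [strict_eq, strict_eq, Bool.and_eq_true, Bool.or_eq_true] at h
  rcases h.1 with h | h
  · exact absurd (Nat.eq_of_beq_eq_true h) h0
  · exact Nat.eq_of_beq_eq_true h

end Vale.Agent.P052
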